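import Mathlib

/-!
# P248, block MA: the Wirtinger derivative and a null Lagrangian

For `C^2` functions `f b : ℂ^n → ℂ`, one of them with compact support, the determinant of the
matrix of Wirtinger derivatives `∂_a (f b)` has integral zero.
-/

open MeasureTheory Complex

namespace Vale.Agent.P248Z.MA

variable {n : ℕ}

/-- The Wirtinger derivative in the coordinate `a`. -/
noncomputable def W (a : Fin n) (f : (Fin n → ℂ) → ℂ) (z : Fin n → ℂ) : ℂ :=
  (fderiv ℝ f z (Pi.single a 1) - I * fderiv ℝ f z (Pi.single a I)) / 2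

theorem W_congr {a : Fin n} {f g : (Fin n → ℂ) → ℂ} {z : Fin n → ℂ} (h : f =ᶠ[nhds z] g) :
    W a f z = W a g z := by
  simp only [W, h.fderiv_eq]

theorem W_const (a : Fin n) (c : ℂ) (z : Fin n → ℂ) : W a (fun _ => c) z = 0 := by
  simp [W]

theorem W_mul {a : Fin n} {f g : (Fin n → ℂ) → ℂ} {z : Fin n → ℂ}
    (hf : DifferentiableAt ℝ f z) (hg : DifferentiableAt ℝ g z) :
    W a (fun y => f y * g y) z = W a f z * g z + f z * W a g z := by
  simp only [W]
  rw [fderiv_fun_mul hf hg]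
  simp only [_root_.add_apply, _root_.smul_apply, smul_eq_mul]
  ring

theorem W_sum {ι : Type*} {a : Fin n} {s : Finset ι} {f : ι → (Fin n → ℂ) → ℂ} {z : Fin n → ℂ}
    (hf : ∀ i ∈ s, DifferentiableAt ℝ (f i) z) :
    W a (fun y => ∑ i ∈ s, f i y) z = ∑ i ∈ s, W a (f i) z := by
  simp only [W]
  rw [fderiv_fun_sum hf]
  simp only [_root_.sum_apply]
  rw [Finset.mul_sum, ← Finset.sum_sub_distrib, Finset.sum_div]

theorem W_prod {ι : Type*} [DecidableEq ι] {a : Fin n} {s : Finset ι}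
    {f : ι → (Fin n → ℂ) → ℂ} {z : Fin n → ℂ}
    (hf : ∀ i ∈ s, DifferentiableAt ℝ (f i) z) :
    W a (fun y => ∏ i ∈ s, f i y) z = ∑ i ∈ s, (∏ j ∈ s.erase i, f j z) * W a (f i) z := by
  simp only [W]
  rw [fderiv_finsetProd hf]
  simp only [_root_.sum_apply, _root_.smul_apply, smul_eq_mul]
  rw [Finset.mul_sum, ← Finset.sum_sub_distrib, Finset.sum_div]
  refine Finset.sum_congr rfl fun i _ => ?_
  ring

theorem contDiffAt_W {a : Fin n} {f : (Fin n → ℂ) → ℂ} {z : Fin n → ℂ} {m : ℕ}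
    (hf : ContDiffAt ℝ (m + 1 : ℕ) f z) : ContDiffAt ℝ m (W a f) z := by
  have h : ContDiffAt ℝ m (fderiv ℝ f) z := hf.fderiv_right (by norm_cast)
  unfold W
  exact ((h.clm_apply contDiffAt_const).sub
    (contDiffAt_const.mul (h.clm_apply contDiffAt_const))).div_const _

theorem contDiff_W {a : Fin n} {f : (Fin n → ℂ) → ℂ} {m : ℕ}
    (hf : ContDiff ℝ (m + 1 : ℕ) f) : ContDiff ℝ m (W a f) :=
  contDiff_iff_contDiffAt.2 fun _ => contDiffAt_W hf.contDiffAt

theorem fderiv_W {b : Fin n} {f : (Fin n → ℂ) → ℂ} {z : Fin n → ℂ}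
    (hf : ContDiffAt ℝ 2 f z) (u : Fin n → ℂ) :
    fderiv ℝ (W b f) z u = (fderiv ℝ (fderiv ℝ f) z u (Pi.single b 1) -
      I * fderiv ℝ (fderiv ℝ f) z u (Pi.single b I)) / 2 := by
  have h : DifferentiableAt ℝ (fderiv ℝ f) z :=
    (hf.fderiv_right (m := 1) (by norm_num)).differentiableAt (by norm_num)
  have h1 : ∀ v : Fin n → ℂ, HasFDerivAt (fun y => fderiv ℝ f y v)
      ((ContinuousLinearMap.apply ℝ ℂ v).comp (fderiv ℝ (fderiv ℝ f) z)) z := fun v =>
    (ContinuousLinearMap.apply ℝ ℂ v).hasFDerivAt.comp z h.hasFDerivAt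
  have h2 := (((h1 (Pi.single b 1)).sub ((h1 (Pi.single b I)).const_mul I)).mul_const (2⁻¹ : ℂ))
  have h3 : W b f = fun y => (fderiv ℝ f y (Pi.single b 1) - I * fderiv ℝ f y (Pi.single b I)) *
      (2⁻¹ : ℂ) := by
    funext y; simp only [W, div_eq_mul_inv]
  rw [h3]
  erw [h2.fderiv]
  simp only [_root_.smul_apply, _root_.sub_apply,
    ContinuousLinearMap.comp_apply, ContinuousLinearMap.apply_apply, smul_eq_mul]
  ring

theorem W_comm {a b : Fin n} {f : (Fin n → ℂ) → ℂ} {z : Fin n → ℂ}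
    (hf : ContDiffAt ℝ 2 f z) : W a (W b f) z = W b (W a f) z := by
  have hs : IsSymmSndFDerivAt ℝ f z := hf.isSymmSndFDerivAt (by simp)
  rw [W, W, fderiv_W hf, fderiv_W hf, fderiv_W hf, fderiv_W hf,
    hs.eq (Pi.single a 1) (Pi.single b 1), hs.eq (Pi.single a 1) (Pi.single b I),
    hs.eq (Pi.single a I) (Pi.single b 1), hs.eq (Pi.single a I) (Pi.single b I)]
  ring

theorem integral_fderiv_apply_eq_zero {F : (Fin n → ℂ) → ℂ} (hF : ContDiff ℝ 1 F)
    (hc : HasCompactSupport F) (v : Fin n → ℂ) : ∫ z, fderiv ℝ F z v = 0 := by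
  have hi : Integrable (fun z => fderiv ℝ F z v) volume := by
    refine Continuous.integrable_of_hasCompactSupport ?_ (hc.fderiv_apply ℝ v)
    exact (hF.continuous_fderiv (by norm_num)).clm_apply continuous_const
  have h := integral_mul_fderiv_eq_neg_fderiv_mul_of_integrable (μ := volume)
    (f := fun _ : Fin n → ℂ => (1 : ℂ)) (g := F) (v := v) (by simp) (by simpa using hi)
    (by simpa using hF.continuous.integrable_of_hasCompactSupport hc)
    (fun _ _ => differentiableAt_const _)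
    (fun x _ => (hF.differentiable (by norm_num)) x)
  simpa using h

theorem hasCompactSupport_W {a : Fin n} {F : (Fin n → ℂ) → ℂ} (hc : HasCompactSupport F) :
    HasCompactSupport (W a F) := by
  have h := hc.fderiv (𝕜 := ℝ)
  exact h.comp_left (g := fun L : (Fin n → ℂ) →L[ℝ] ℂ =>
    (L (Pi.single a 1) - I * L (Pi.single a I)) / 2) (by simp)

theorem integrable_W {a : Fin n} {F : (Fin n → ℂ) → ℂ} (hF : ContDiff ℝ 1 F)
    (hc : HasCompactSupport F) : Integrable (W a F) volume :=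
  (contDiff_W (m := 0) (by simpa using hF)).continuous.integrable_of_hasCompactSupport
    (hasCompactSupport_W hc)

theorem integral_W_eq_zero {a : Fin n} {F : (Fin n → ℂ) → ℂ} (hF : ContDiff ℝ 1 F)
    (hc : HasCompactSupport F) : ∫ z, W a F z = 0 := by
  have hi : ∀ v, Integrable (fun z => fderiv ℝ F z v) volume := fun v => by
    refine Continuous.integrable_of_hasCompactSupport ?_ (hc.fderiv_apply ℝ v)
    exact (hF.continuous_fderiv (by norm_num)).clm_apply continuous_const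
  unfold W
  rw [integral_div, integral_sub (hi _) ((hi _).const_mul _), integral_const_mul,
    integral_fderiv_apply_eq_zero hF hc, integral_fderiv_apply_eq_zero hF hc]
  simp

/-- The Piola identity. -/
theorem piola {f : Fin n → (Fin n → ℂ) → ℂ} {z : Fin n → ℂ} (hf : ∀ b, ContDiffAt ℝ 2 (f b) z)
    (b₀ : Fin n) :
    ∑ σ : Equiv.Perm (Fin n), (Equiv.Perm.sign σ : ℂ) *
      W (σ b₀) (fun y => ∏ b ∈ Finset.univ.erase b₀, W (σ b) (f b) y) z = 0 := by
  have hd : ∀ a b, DifferentiableAt ℝ (W a (f b)) z := fun a b =>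
    (contDiffAt_W (m := 1) (by exact_mod_cast hf b)).differentiableAt (by norm_num)
  simp_rw [W_prod (fun b _ => hd _ b), Finset.mul_sum]
  rw [Finset.sum_comm]
  refine Finset.sum_eq_zero fun c hc => ?_
  have hcb : c ≠ b₀ := Finset.ne_of_mem_erase hc
  set T : Equiv.Perm (Fin n) → ℂ := fun σ => (Equiv.Perm.sign σ : ℂ) *
    ((∏ j ∈ (Finset.univ.erase b₀).erase c, W (σ j) (f j) z) *
      W (σ b₀) (W (σ c) (f c)) z) with hT
  have h1 : ∀ σ, T (σ * Equiv.swap b₀ c) = - T σ := by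
    intro σ
    have hp : ∏ j ∈ (Finset.univ.erase b₀).erase c, W ((σ * Equiv.swap b₀ c) j) (f j) z =
        ∏ j ∈ (Finset.univ.erase b₀).erase c, W (σ j) (f j) z := by
      refine Finset.prod_congr rfl fun j hj => ?_
      have hjc : j ≠ c := Finset.ne_of_mem_erase hj
      have hjb : j ≠ b₀ := Finset.ne_of_mem_erase (Finset.mem_of_mem_erase hj)
      rw [Equiv.Perm.mul_apply, Equiv.swap_apply_of_ne_of_ne hjb hjc]
    simp only [hT]
    rw [hp, Equiv.Perm.mul_apply, Equiv.Perm.mul_apply, Equiv.swap_apply_left,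
      Equiv.swap_apply_right, W_comm (hf c), Equiv.Perm.sign_mul, Equiv.Perm.sign_swap hcb.symm]
    push_cast
    ring
  have h2 : ∑ σ, T σ = ∑ σ, T (σ * Equiv.swap b₀ c) :=
    (Equiv.sum_comp (Equiv.mulRight (Equiv.swap b₀ c)) T).symm
  simp_rw [h1, Finset.sum_neg_distrib] at h2
  have h3 : (2 : ℂ) * ∑ σ, T σ = 0 := by linear_combination h2
  exact (mul_eq_zero.1 h3).resolve_left two_ne_zero

theorem det_eq_sum_W {f : Fin n → (Fin n → ℂ) → ℂ} {z : Fin n → ℂ}
    (hf : ∀ b, ContDiffAt ℝ 2 (f b) z) (b₀ : Fin n) :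
    (Matrix.of fun a b => W a (f b) z).det =
      ∑ σ : Equiv.Perm (Fin n), (Equiv.Perm.sign σ : ℂ) *
        W (σ b₀) (fun y => f b₀ y * ∏ b ∈ Finset.univ.erase b₀, W (σ b) (f b) y) z := by
  have hd : ∀ a b, DifferentiableAt ℝ (W a (f b)) z := fun a b =>
    (contDiffAt_W (m := 1) (by exact_mod_cast hf b)).differentiableAt (by norm_num)
  have hP : ∀ σ : Equiv.Perm (Fin n), DifferentiableAt ℝ
      (fun y => ∏ b ∈ Finset.univ.erase b₀, W (σ b) (f b) y) z := fun σ =>
    (HasFDerivAt.finsetProd fun b _ => (hd (σ b) b).hasFDerivAt).differentiableAt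
  have h0 : DifferentiableAt ℝ (f b₀) z := (hf b₀).differentiableAt (by norm_num)
  simp_rw [W_mul h0 (hP _), mul_add, Finset.sum_add_distrib]
  have h1 : ∑ σ : Equiv.Perm (Fin n), (Equiv.Perm.sign σ : ℂ) * (f b₀ z *
      W (σ b₀) (fun y => ∏ b ∈ Finset.univ.erase b₀, W (σ b) (f b) y) z) = 0 := by
    have := piola hf b₀
    simp_rw [mul_left_comm _ (f b₀ z)]
    rw [← Finset.mul_sum, this, mul_zero]
  rw [h1, add_zero, Matrix.det_apply']
  refine Finset.sum_congr rfl fun σ _ => ?_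
  rw [Finset.mul_prod_erase _ (fun b => W (σ b) (f b) z) (Finset.mem_univ b₀)]
  simp

/-- The null Lagrangian identity. -/
theorem integral_det_W_eq_zero {f : Fin n → (Fin n → ℂ) → ℂ} (hf : ∀ b, ContDiff ℝ 2 (f b))
    (b₀ : Fin n) (hc : HasCompactSupport (f b₀)) :
    Integrable (fun z => (Matrix.of fun a b => W a (f b) z).det) volume ∧
      ∫ z, (Matrix.of fun a b => W a (f b) z).det = 0 := by
  simp_rw [det_eq_sum_W (fun b => (hf b).contDiffAt) b₀]
  have hs : ∀ σ : Equiv.Perm (Fin n), ContDiff ℝ 1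
      (fun y => f b₀ y * ∏ b ∈ Finset.univ.erase b₀, W (σ b) (f b) y) := fun σ =>
    ((hf b₀).of_le (by norm_num)).mul (contDiff_prod fun b _ =>
      contDiff_W (m := 1) (by exact_mod_cast hf b))
  have hk : ∀ σ : Equiv.Perm (Fin n), HasCompactSupport
      (fun y => f b₀ y * ∏ b ∈ Finset.univ.erase b₀, W (σ b) (f b) y) := fun σ => hc.mul_right
  refine ⟨integrable_finsetSum _ fun σ _ => (integrable_W (hs σ) (hk σ)).const_mul _, ?_⟩
  rw [integral_finsetSum _ fun σ _ => (integrable_W (hs σ) (hk σ)).const_mul _]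
  refine Finset.sum_eq_zero fun σ _ => ?_
  rw [integral_const_mul, integral_W_eq_zero (hs σ) (hk σ), mul_zero]

end Vale.Agent.P248Z.MA
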