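import Mathlib
import Vale.Agent.P268.Hol
import Vale.Agent.P248Z.Lim.Defs
import Vale.Agent.P248Z.MA.Null

/-!
# P248, block MA: the integral identity for a holomorphic map

For a holomorphic map `G : D → ℂ^N`, `S = ∑ ‖G j‖^2`, `J` the Jacobian matrix and `v = Jᴴ G`,
and every smooth `Γ` vanishing on `[τ, ∞)` with `{S ≤ τ}` compact, the integral over `D` of
`det (Γ(S) Jᴴ J + Γ'(S) v vᴴ)` is zero.
-/

open MeasureTheory Complex Matrix
open scoped ComplexOrder ComplexConjugate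

namespace Vale.Agent.P248Z.MA

variable {n N : ℕ}

/-- The squared norm of `G z`. -/
noncomputable def sq (G : Fin N → (Fin n → ℂ) → ℂ) (z : Fin n → ℂ) : ℝ := ∑ j, ‖G j z‖ ^ 2

/-- The vector `Jᴴ G`. -/
noncomputable def sig (G : Fin N → (Fin n → ℂ) → ℂ) (b : Fin n) (z : Fin n → ℂ) : ℂ :=
  ∑ j, conj (jac G z j b) * G j z

/-- The matrix `α Jᴴ J + β v vᴴ`. -/
noncomputable def mat (G : Fin N → (Fin n → ℂ) → ℂ) (α β : ℝ) (z : Fin n → ℂ) :
    Matrix (Fin n) (Fin n) ℂ :=
  Matrix.of fun b a => (α : ℂ) * ((jac G z)ᴴ * jac G z) b a +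
    (β : ℂ) * (sig G b z * conj (sig G a z))

theorem sq_nonneg' (G : Fin N → (Fin n → ℂ) → ℂ) (z : Fin n → ℂ) : 0 ≤ sq G z :=
  Finset.sum_nonneg fun _ _ => sq_nonneg _

theorem W_holo {a : Fin n} {f : (Fin n → ℂ) → ℂ} {z : Fin n → ℂ} (hf : DifferentiableAt ℂ f z) :
    W a f z = fderiv ℂ f z (Pi.single a 1) := by
  have h : fderiv ℝ f z = (fderiv ℂ f z).restrictScalars ℝ := hf.fderiv_restrictScalars ℝ
  have h1 : (Pi.single a I : Fin n → ℂ) = I • (Pi.single a 1 : Fin n → ℂ) := by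
    rw [← Pi.single_smul']; simp
  simp only [W, h, ContinuousLinearMap.coe_restrictScalars', h1, map_smul, smul_eq_mul]
  linear_combination (-(fderiv ℂ f z (Pi.single a 1)) / 2) * I_mul_I

theorem W_conj_holo {a : Fin n} {f : (Fin n → ℂ) → ℂ} {z : Fin n → ℂ}
    (hf : DifferentiableAt ℂ f z) : W a (fun y => conj (f y)) z = 0 := by
  have h : HasFDerivAt (fun y => conj (f y))
      ((conjCLE : ℂ →L[ℝ] ℂ).comp ((fderiv ℂ f z).restrictScalars ℝ)) z :=
    (conjCLE : ℂ →L[ℝ] ℂ).hasFDerivAt.comp z (hf.hasFDerivAt.restrictScalars ℝ)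
  have h1 : (Pi.single a I : Fin n → ℂ) = I • (Pi.single a 1 : Fin n → ℂ) := by
    rw [← Pi.single_smul']; simp
  simp only [W, h.fderiv, ContinuousLinearMap.comp_apply, ContinuousLinearMap.coe_restrictScalars',
    h1, map_smul, smul_eq_mul, ContinuousLinearEquiv.coe_coe, conjCLE_apply, map_mul, conj_I]
  linear_combination (conj (fderiv ℂ f z (Pi.single a 1)) / 2) * I_mul_I

theorem W_comp_real {a : Fin n} {s : (Fin n → ℂ) → ℝ} {Γ : ℝ → ℝ} {z : Fin n → ℂ} {c : ℝ}
    (hs : DifferentiableAt ℝ s z) (hΓ : HasDerivAt Γ c (s z)) :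
    W a (fun y => ((Γ (s y) : ℝ) : ℂ)) z = c * W a (fun y => ((s y : ℝ) : ℂ)) z := by
  have h1 : HasFDerivAt (fun y => ((s y : ℝ) : ℂ)) (ofRealCLM.comp (fderiv ℝ s z)) z :=
    ofRealCLM.hasFDerivAt.comp z hs.hasFDerivAt
  have h2 : HasFDerivAt (fun y => ((Γ (s y) : ℝ) : ℂ)) (ofRealCLM.comp (c • fderiv ℝ s z)) z :=
    ofRealCLM.hasFDerivAt.comp z (hΓ.comp_hasFDerivAt z hs.hasFDerivAt)
  simp only [W, h1.fderiv, h2.fderiv, ContinuousLinearMap.comp_apply, _root_.smul_apply,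
    smul_eq_mul, ofRealCLM_apply]
  push_cast
  ring

section Holo

variable {D : Set (Fin n → ℂ)} {G : Fin N → (Fin n → ℂ) → ℂ}

theorem contDiffAt_G (hD : IsOpen D) (hG : ∀ j, DifferentiableOn ℂ (G j) D) (m : ℕ) (j : Fin N)
    {z : Fin n → ℂ} (hz : z ∈ D) : ContDiffAt ℂ m (G j) z :=
  (Vale.Agent.P268.contDiffOn_of_differentiableOn hD (hG j) m).contDiffAt (hD.mem_nhds hz)

theorem contDiffAt_jac (hD : IsOpen D) (hG : ∀ j, DifferentiableOn ℂ (G j) D) (m : ℕ) (j : Fin N)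
    (b : Fin n) {z : Fin n → ℂ} (hz : z ∈ D) : ContDiffAt ℂ m (fun y => jac G y j b) z := by
  have h : ContDiffAt ℂ m (fderiv ℂ (G j)) z :=
    (contDiffAt_G hD hG (m + 1) j hz).fderiv_right (by norm_cast)
  exact h.clm_apply contDiffAt_const

theorem contDiffAt_conj {f : (Fin n → ℂ) → ℂ} {z : Fin n → ℂ} {m : ℕ}
    (hf : ContDiffAt ℝ m f z) : ContDiffAt ℝ m (fun y => conj (f y)) z :=
  (conjCLE : ℂ →L[ℝ] ℂ).contDiff.contDiffAt.comp z hf

theorem contDiffAt_sig (hD : IsOpen D) (hG : ∀ j, DifferentiableOn ℂ (G j) D) (m : ℕ)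
    (b : Fin n) {z : Fin n → ℂ} (hz : z ∈ D) : ContDiffAt ℝ m (sig G b) z := by
  unfold sig
  exact ContDiffAt.sum fun j _ =>
    (contDiffAt_conj ((contDiffAt_jac hD hG m j b hz).restrict_scalars ℝ)).mul
      ((contDiffAt_G hD hG m j hz).restrict_scalars ℝ)

theorem contDiffAt_sq (hD : IsOpen D) (hG : ∀ j, DifferentiableOn ℂ (G j) D) (m : ℕ)
    {z : Fin n → ℂ} (hz : z ∈ D) : ContDiffAt ℝ m (sq G) z := by
  unfold sq
  exact ContDiffAt.sum fun j _ => ((contDiffAt_G hD hG m j hz).restrict_scalars ℝ).norm_sq ℂ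

theorem continuousOn_sq (hD : IsOpen D) (hG : ∀ j, DifferentiableOn ℂ (G j) D) :
    ContinuousOn (sq G) D := fun _ hz =>
  (contDiffAt_sq hD hG 0 hz).continuousAt.continuousWithinAt

theorem W_sq (hD : IsOpen D) (hG : ∀ j, DifferentiableOn ℂ (G j) D) (a : Fin n)
    {z : Fin n → ℂ} (hz : z ∈ D) :
    W a (fun y => ((sq G y : ℝ) : ℂ)) z = conj (sig G a z) := by
  have hd : ∀ j, DifferentiableAt ℂ (G j) z := fun j => (hG j).differentiableAt (hD.mem_nhds hz)
  have hr : ∀ j, DifferentiableAt ℝ (G j) z := fun j => (hd j).restrictScalars ℝ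
  have hc : ∀ j, DifferentiableAt ℝ (fun y => conj (G j y)) z := fun j =>
    (conjCLE : ℂ →L[ℝ] ℂ).differentiableAt.comp z (hr j)
  have h : (fun y => ((sq G y : ℝ) : ℂ)) = fun y => ∑ j, G j y * conj (G j y) := by
    funext y
    simp only [sq, Complex.mul_conj, Complex.normSq_eq_norm_sq]
    push_cast
    rfl
  rw [h, W_sum fun j _ => (hr j).fun_mul (hc j)]
  simp only [sig, map_sum, map_mul, conj_conj]
  refine Finset.sum_congr rfl fun j _ => ?_
  rw [W_mul (hr j) (hc j), W_holo (hd j), W_conj_holo (hd j)]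
  simp [jac]

theorem W_sig (hD : IsOpen D) (hG : ∀ j, DifferentiableOn ℂ (G j) D) (a b : Fin n)
    {z : Fin n → ℂ} (hz : z ∈ D) :
    W a (sig G b) z = ((jac G z)ᴴ * jac G z) b a := by
  have hd : ∀ j, DifferentiableAt ℂ (G j) z := fun j => (hG j).differentiableAt (hD.mem_nhds hz)
  have hr : ∀ j, DifferentiableAt ℝ (G j) z := fun j => (hd j).restrictScalars ℝ
  have hj : ∀ j, DifferentiableAt ℂ (fun y => jac G y j b) z := fun j =>
    (contDiffAt_jac hD hG 1 j b hz).differentiableAt (by norm_num)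
  have hc : ∀ j, DifferentiableAt ℝ (fun y => conj (jac G y j b)) z := fun j =>
    (conjCLE : ℂ →L[ℝ] ℂ).differentiableAt.comp z ((hj j).restrictScalars ℝ)
  have h : sig G b = fun y => ∑ j, conj (jac G y j b) * G j y := rfl
  rw [h, W_sum fun j _ => (hc j).fun_mul (hr j), Matrix.mul_apply]
  refine Finset.sum_congr rfl fun j _ => ?_
  rw [W_mul (hc j) (hr j), W_holo (hd j), W_conj_holo (hj j)]
  simp [jac]

theorem W_form (hD : IsOpen D) (hG : ∀ j, DifferentiableOn ℂ (G j) D) {Γ : ℝ → ℝ}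
    (hΓ : Differentiable ℝ Γ) (a b : Fin n) {z : Fin n → ℂ} (hz : z ∈ D) :
    W a (fun y => ((Γ (sq G y) : ℝ) : ℂ) * sig G b y) z =
      mat G (Γ (sq G z)) (deriv Γ (sq G z)) z b a := by
  have hs : DifferentiableAt ℝ (sq G) z :=
    (contDiffAt_sq hD hG 1 hz).differentiableAt (by norm_num)
  have h1 : DifferentiableAt ℝ (fun y => ((Γ (sq G y) : ℝ) : ℂ)) z :=
    ofRealCLM.differentiableAt.comp z ((hΓ _).comp z hs)
  have h2 : DifferentiableAt ℝ (sig G b) z :=
    (contDiffAt_sig hD hG 1 b hz).differentiableAt (by norm_num)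
  rw [W_mul h1 h2, W_comp_real hs (hΓ _).hasDerivAt, W_sq hD hG a hz, W_sig hD hG a b hz]
  simp only [mat, Matrix.of_apply]
  ring

/-- The integral identity. -/
theorem integral_det_mat (hn : 0 < n) (hD : IsOpen D) (hG : ∀ j, DifferentiableOn ℂ (G j) D)
    {τ : ℝ} (hK : IsCompact {z | z ∈ D ∧ sq G z ≤ τ}) {Γ : ℝ → ℝ} (hΓ : ContDiff ℝ 2 Γ)
    (h0 : ∀ s, τ ≤ s → Γ s = 0) :
    IntegrableOn (fun z => (mat G (Γ (sq G z)) (deriv Γ (sq G z)) z).det.re) D volume ∧
      ∫ z in D, (mat G (Γ (sq G z)) (deriv Γ (sq G z)) z).det.re = 0 := by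
  classical
  set K := {z | z ∈ D ∧ sq G z ≤ τ} with hKdef
  set g : Fin n → (Fin n → ℂ) → ℂ := fun b y => ((Γ (sq G y) : ℝ) : ℂ) * sig G b y with hg
  set f : Fin n → (Fin n → ℂ) → ℂ := fun b => D.indicator (g b) with hf
  have hzero : ∀ b y, y ∉ K → f b y = 0 := by
    intro b y hy
    by_cases hyD : y ∈ D
    · have : τ ≤ sq G y := by
        by_contra h
        exact hy ⟨hyD, (not_le.1 h).le⟩
      simp [hf, hg, Set.indicator_of_mem hyD, h0 _ this]
    · simp [hf, Set.indicator_of_notMem hyD]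
  have hin : ∀ b z, z ∈ D → f b =ᶠ[nhds z] g b := fun b z hz => by
    filter_upwards [hD.mem_nhds hz] with y hy
    simp [hf, Set.indicator_of_mem hy]
  have hout : ∀ b z, z ∉ D → f b =ᶠ[nhds z] fun _ => 0 := fun b z hz => by
    have : z ∈ Kᶜ := fun h => hz h.1
    filter_upwards [hK.isClosed.isOpen_compl.mem_nhds this] with y hy
    exact hzero b y hy
  have hsm : ∀ b, ContDiff ℝ 2 (f b) := fun b => contDiff_iff_contDiffAt.2 fun z => by
    by_cases hz : z ∈ D
    · refine ContDiffAt.congr_of_eventuallyEq ?_ (hin b z hz)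
      exact (ofRealCLM.contDiff.contDiffAt.comp z
        (hΓ.contDiffAt.comp z (contDiffAt_sq hD hG 2 hz))).mul (contDiffAt_sig hD hG 2 b hz)
    · exact contDiffAt_const.congr_of_eventuallyEq (hout b z hz)
  have hc : HasCompactSupport (f ⟨0, hn⟩) := HasCompactSupport.intro hK (hzero _)
  obtain ⟨hi, hI⟩ := integral_det_W_eq_zero hsm ⟨0, hn⟩ hc
  have heq : (fun z => (Matrix.of fun a b => W a (f b) z).det) =
      D.indicator fun z => (mat G (Γ (sq G z)) (deriv Γ (sq G z)) z).det := by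
    funext z
    by_cases hz : z ∈ D
    · rw [Set.indicator_of_mem hz, ← Matrix.det_transpose]
      congr 1
      ext b a
      rw [Matrix.transpose_apply, Matrix.of_apply, W_congr (hin b z hz)]
      exact W_form hD hG (hΓ.differentiable (by norm_num)) a b hz
    · rw [Set.indicator_of_notMem hz]
      refine Matrix.det_eq_zero_of_row_eq_zero ⟨0, hn⟩ fun b => ?_
      rw [Matrix.of_apply, W_congr (hout b z hz), W_const]
  rw [heq] at hi hI
  rw [integrable_indicator_iff hD.measurableSet] at hi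
  rw [integral_indicator hD.measurableSet] at hI
  refine ⟨hi.re, ?_⟩
  have := integral_re hi
  simp only [RCLike.re_to_complex] at this
  rw [this, hI, Complex.zero_re]

end Holo

/-- Positivity of the matrix `α Jᴴ J + β v vᴴ`. -/
theorem posSemidef_mat (G : Fin N → (Fin n → ℂ) → ℂ) {α β : ℝ} (z : Fin n → ℂ) (hα : 0 ≤ α)
    (hβ : 0 ≤ α + sq G z * β) : (mat G α β z).PosSemidef := by
  set u : Fin N → ℂ := fun j => G j z with hu
  set P : Matrix (Fin N) (Fin N) ℂ := (α : ℂ) • 1 + (β : ℂ) • vecMulVec u (star u) with hP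
  have hm : mat G α β z = (jac G z)ᴴ * P * jac G z := by
    ext b a
    simp only [mat, Matrix.of_apply, hP, Matrix.mul_add, Matrix.add_mul, Matrix.mul_smul,
      Matrix.smul_mul, Matrix.mul_one, Matrix.add_apply, Matrix.smul_apply, smul_eq_mul]
    congr 2
    simp only [sig, Matrix.mul_apply, vecMulVec_apply, conjTranspose_apply, map_sum, map_mul,
      conj_conj, Pi.star_apply, hu, RCLike.star_def, Finset.sum_mul, Finset.mul_sum]
    refine Finset.sum_congr rfl fun j _ => Finset.sum_congr rfl fun i _ => ?_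
    ring
  rw [hm]
  refine PosSemidef.conjTranspose_mul_mul_same ?_ _
  refine PosSemidef.of_dotProduct_mulVec_nonneg ?_ fun x => ?_
  · refine IsHermitian.add ?_ ?_
    · exact isHermitian_one.smul (by simp [IsSelfAdjoint])
    · exact (posSemidef_vecMulVec_self_star u).1.smul (by simp [IsSelfAdjoint])
  · set w : ℂ := ∑ j, conj (u j) * x j with hw
    have h1 : star x ⬝ᵥ P *ᵥ x = ((α * ∑ j, ‖x j‖ ^ 2 + β * ‖w‖ ^ 2 : ℝ) : ℂ) := by
      simp only [hP, Matrix.add_mulVec, Matrix.smul_mulVec, Matrix.one_mulVec, dotProduct_add,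
        dotProduct_smul, smul_eq_mul]
      push_cast
      congr 2
      · simp only [dotProduct, Pi.star_apply, RCLike.star_def, Complex.conj_mul']
      · rw [← Complex.conj_mul', hw]
        simp only [dotProduct, Matrix.mulVec, vecMulVec_apply, Pi.star_apply, RCLike.star_def,
          map_sum, map_mul, conj_conj, Finset.sum_mul, Finset.mul_sum]
        rw [Finset.sum_comm]
        refine Finset.sum_congr rfl fun j _ => Finset.sum_congr rfl fun i _ => ?_
        ring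
    rw [h1, Complex.zero_le_real]
    have hcs : ‖w‖ ^ 2 ≤ sq G z * ∑ j, ‖x j‖ ^ 2 := by
      have h2 : ‖w‖ ≤ ∑ j, ‖u j‖ * ‖x j‖ := by
        refine (norm_sum_le _ _).trans (le_of_eq ?_)
        simp
      exact (pow_le_pow_left₀ (norm_nonneg _) h2 2).trans (Finset.sum_mul_sq_le_sq_mul_sq _ _ _)
    have hx : 0 ≤ ∑ j, ‖x j‖ ^ 2 := Finset.sum_nonneg fun _ _ => sq_nonneg _
    rcases le_total 0 β with hb | hb
    · positivity
    · nlinarith [mul_le_mul_of_nonpos_left hcs hb, mul_nonneg hβ hx]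

theorem det_mat_nonneg (G : Fin N → (Fin n → ℂ) → ℂ) {α β : ℝ} (z : Fin n → ℂ) (hα : 0 ≤ α)
    (hβ : 0 ≤ α + sq G z * β) : 0 ≤ (mat G α β z).det.re :=
  (Complex.le_def.1 (posSemidef_mat G z hα hβ).det_nonneg).1

theorem det_mat_zero (G : Fin N → (Fin n → ℂ) → ℂ) (α : ℝ) (z : Fin n → ℂ) :
    (mat G α 0 z).det.re = α ^ n * gram G z := by
  have : mat G α 0 z = (α : ℂ) • ((jac G z)ᴴ * jac G z) := by
    ext b a; simp [mat]
  rw [this, Matrix.det_smul, Fintype.card_fin, gram, ← Complex.ofReal_pow, Complex.re_ofReal_mul]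

theorem gram_nonneg (G : Fin N → (Fin n → ℂ) → ℂ) (z : Fin n → ℂ) : 0 ≤ gram G z := by
  have := det_mat_nonneg G (α := 1) (β := 0) z zero_le_one (by simp)
  rwa [det_mat_zero, one_pow, one_mul] at this

theorem continuousOn_gram {D : Set (Fin n → ℂ)} {G : Fin N → (Fin n → ℂ) → ℂ} (hD : IsOpen D)
    (hG : ∀ j, DifferentiableOn ℂ (G j) D) : ContinuousOn (gram G) D := by
  intro z hz
  have h : ContinuousAt (fun y => jac G y) z := by
    refine continuousAt_pi.2 fun j => continuousAt_pi.2 fun b => ?_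
    exact (contDiffAt_jac hD hG 0 j b hz).continuousAt
  have h2 : Continuous fun M : Matrix (Fin N) (Fin n) ℂ => (Mᴴ * M).det.re :=
    Complex.continuous_re.comp
      ((continuous_id.matrix_conjTranspose.matrix_mul continuous_id).matrix_det)
  exact (h2.continuousAt.comp h).continuousWithinAt

end Vale.Agent.P248Z.MA
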