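import Mathlib
import Vale.Agent.P248Z.MA.Core

/-!
# P248, block MA: the Lelong monotonicity formula

For a holomorphic map `G : D → ℂ^N` with `{‖G‖^2 ≤ τ}` compact, the mass
`m(s) = ∫_{‖G‖^2 < s} det (Jᴴ J)` satisfies `m(t s) ≤ t^n m(s)` for `0 < t ≤ 1`, `s ≤ τ`.
-/

open MeasureTheory Complex Matrix Set Filter Topology
open scoped ComplexOrder ComplexConjugate

namespace Vale.Agent.P248Z.MA

variable {n N : ℕ}

/-- A smooth step from `0` on `(-∞, p]` to `1` on `[q, ∞)`. -/
noncomputable def step (p q : ℝ) (s : ℝ) : ℝ := Real.smoothTransition ((s - p) / (q - p))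

theorem contDiff_step (p q : ℝ) : ContDiff ℝ 2 (step p q) :=
  (Real.smoothTransition.contDiff (n := 2)).comp ((contDiff_id.sub contDiff_const).div_const _)

theorem differentiable_step (p q : ℝ) : Differentiable ℝ (step p q) :=
  (contDiff_step p q).differentiable (by norm_num)

theorem step_nonneg (p q s : ℝ) : 0 ≤ step p q s := Real.smoothTransition.nonneg _

theorem step_le_one (p q s : ℝ) : step p q s ≤ 1 := Real.smoothTransition.le_one _

theorem step_of_le {p q s : ℝ} (hpq : p < q) (h : s ≤ p) : step p q s = 0 :=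
  Real.smoothTransition.zero_of_nonpos
    (div_nonpos_of_nonpos_of_nonneg (sub_nonpos.2 h) (sub_pos.2 hpq).le)

theorem step_of_ge {p q s : ℝ} (hpq : p < q) (h : q ≤ s) : step p q s = 1 :=
  Real.smoothTransition.one_of_one_le ((one_le_div (sub_pos.2 hpq)).2 (by linarith))

theorem monotone_step {p q : ℝ} (hpq : p < q) : Monotone (step p q) := fun _ _ h =>
  Real.smoothTransition.monotone
    (div_le_div_of_nonneg_right (by linarith) (sub_pos.2 hpq).le)

theorem deriv_step_nonneg {p q : ℝ} (hpq : p < q) (s : ℝ) : 0 ≤ deriv (step p q) s :=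
  (monotone_step hpq).deriv_nonneg

theorem deriv_eq_zero_of_lt {f : ℝ → ℝ} {p c s : ℝ} (h : ∀ u, u ≤ p → f u = c) (hs : s < p) :
    deriv f s = 0 := by
  have : f =ᶠ[𝓝 s] fun _ => c := by
    filter_upwards [Iio_mem_nhds hs] with u hu using h u (le_of_lt hu)
  rw [this.deriv_eq, deriv_const]

theorem deriv_eq_zero_of_gt {f : ℝ → ℝ} {p c s : ℝ} (h : ∀ u, p ≤ u → f u = c) (hs : p < s) :
    deriv f s = 0 := by
  have : f =ᶠ[𝓝 s] fun _ => c := by
    filter_upwards [Ioi_mem_nhds hs] with u hu using h u (le_of_lt hu)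
  rw [this.deriv_eq, deriv_const]

/-- The weight used in the comparison. -/
theorem exists_weight {s₁ s₀ c c₁ : ℝ} (h0 : 0 < s₁) (h1 : s₁ < s₀) (h2 : s₀ ≤ c) (h3 : c < c₁) :
    ∃ γ : ℝ → ℝ, ContDiff ℝ 2 γ ∧ (∀ s, s ≤ s₁ → γ s = c / s₀) ∧ (∀ s, c₁ ≤ s → γ s = 1) ∧
      (∀ s, 0 ≤ γ s) ∧ ∀ s, 0 ≤ s → 0 ≤ γ s + s * deriv γ s := by
  set m : ℝ → ℝ := fun s => s₀ + step s₁ s₀ s * (s - s₀) + step c c₁ s * (c - s) with hm
  have hs₀ : 0 < s₀ := h0.trans h1
  have hc : 0 < c := hs₀.trans_le h2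
  have hmpos : ∀ s, 0 < m s := by
    intro s
    have a0 := step_nonneg s₁ s₀ s
    have a1 := step_le_one s₁ s₀ s
    have b0 := step_nonneg c c₁ s
    have b1 := step_le_one c c₁ s
    simp only [hm]
    rcases le_total s s₁ with h | h
    · rw [step_of_le h1 h, step_of_le h3 (by linarith)]; linarith
    · rcases le_total s c with h' | h'
      · rw [step_of_le h3 h']
        rcases le_total s s₀ with h'' | h''
        · nlinarith [mul_le_mul_of_nonneg_right a1 (sub_nonneg.2 h'')]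
        · nlinarith [mul_nonneg a0 (sub_nonneg.2 h'')]
      · rw [step_of_ge h1 (by linarith)]
        nlinarith [mul_le_mul_of_nonneg_right b1 (sub_nonneg.2 h')]
  have hmc : ContDiff ℝ 2 m :=
    (contDiff_const.add ((contDiff_step _ _).mul (contDiff_id.sub contDiff_const))).add
      ((contDiff_step _ _).mul (contDiff_const.sub contDiff_id))
  refine ⟨fun s => c / m s, contDiff_const.div hmc fun s => (hmpos s).ne', ?_, ?_, ?_, ?_⟩
  · intro s hs
    simp only [hm]
    rw [step_of_le h1 hs, step_of_le h3 (by linarith)]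
    simp
  · intro s hs
    simp only [hm]
    rw [step_of_ge h1 (by linarith), step_of_ge h3 hs]
    rw [div_eq_one_iff_eq (by linarith)]
    ring
  · intro s
    exact div_nonneg hc.le (hmpos s).le
  · intro s hs
    have hd : HasDerivAt m (deriv (step s₁ s₀) s * (s - s₀) + step s₁ s₀ s * 1 +
        (deriv (step c c₁) s * (c - s) + step c c₁ s * (-1))) s := by
      have e1 := (differentiable_step s₁ s₀ s).hasDerivAt.fun_mul ((hasDerivAt_id' s).sub_const s₀)
      have e2 := (differentiable_step c c₁ s).hasDerivAt.fun_mul ((hasDerivAt_id' s).const_sub c)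
      exact (e1.const_add s₀).fun_add e2
    have hd2 := (hasDerivAt_const s c).fun_div hd (hmpos s).ne'
    rw [hd2.deriv]
    have k1 : 0 ≤ deriv (step s₁ s₀) s * (s₀ - s) := by
      rcases le_or_gt s s₀ with h | h
      · exact mul_nonneg (deriv_step_nonneg h1 s) (sub_nonneg.2 h)
      · rw [deriv_eq_zero_of_gt (fun u hu => step_of_ge h1 hu) h, zero_mul]
    have k2 : 0 ≤ deriv (step c c₁) s * (s - c) := by
      rcases le_or_gt c s with h | h
      · exact mul_nonneg (deriv_step_nonneg h3 s) (sub_nonneg.2 h)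
      · rw [deriv_eq_zero_of_lt (fun u hu => step_of_le h3 hu) h, zero_mul]
    have a1 := step_le_one s₁ s₀ s
    have b0 := step_nonneg c c₁ s
    have key : 0 ≤ m s - s * (deriv (step s₁ s₀) s * (s - s₀) + step s₁ s₀ s * 1 +
        (deriv (step c c₁) s * (c - s) + step c c₁ s * (-1))) := by
      have e : m s - s * (deriv (step s₁ s₀) s * (s - s₀) + step s₁ s₀ s * 1 +
        (deriv (step c c₁) s * (c - s) + step c c₁ s * (-1))) =
          s₀ * (1 - step s₁ s₀ s) + step c c₁ s * c + s * (deriv (step s₁ s₀) s * (s₀ - s)) +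
            s * (deriv (step c c₁) s * (s - c)) := by
        simp only [hm]; ring
      rw [e]
      have := mul_nonneg hs₀.le (sub_nonneg.2 a1)
      positivity
    have hp := hmpos s
    have e : c / m s + s * ((0 * m s - c * (deriv (step s₁ s₀) s * (s - s₀) + step s₁ s₀ s * 1 +
        (deriv (step c c₁) s * (c - s) + step c c₁ s * (-1)))) / m s ^ 2) =
        c * (m s - s * (deriv (step s₁ s₀) s * (s - s₀) + step s₁ s₀ s * 1 +
        (deriv (step c c₁) s * (c - s) + step c c₁ s * (-1)))) / m s ^ 2 := by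
      field_simp
      ring
    rw [e]
    positivity

section Holo

variable {D : Set (Fin n → ℂ)} {G : Fin N → (Fin n → ℂ) → ℂ}

theorem isOpen_sub (hD : IsOpen D) (hG : ∀ j, DifferentiableOn ℂ (G j) D) (s : ℝ) :
    IsOpen {z | z ∈ D ∧ sq G z < s} :=
  (continuousOn_sq hD hG).isOpen_inter_preimage hD isOpen_Iio

theorem integrableOn_gram (hD : IsOpen D) (hG : ∀ j, DifferentiableOn ℂ (G j) D)
    {τ : ℝ} (hK : IsCompact {z | z ∈ D ∧ sq G z ≤ τ}) {s : ℝ} (hs : s ≤ τ) :
    IntegrableOn (gram G) {z | z ∈ D ∧ sq G z < s} volume :=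
  (((continuousOn_gram hD hG).mono fun _ h => h.1).integrableOn_compact hK).mono_set
    fun _ h => ⟨h.1, h.2.le.trans hs⟩

/-- The comparison inequality. -/
theorem comparison (hn : 0 < n) (hD : IsOpen D) (hG : ∀ j, DifferentiableOn ℂ (G j) D)
    {τ : ℝ} (hK : IsCompact {z | z ∈ D ∧ sq G z ≤ τ}) {s₁ s₀ c c₂ : ℝ}
    (h0 : 0 < s₁) (h1 : s₁ < s₀) (h2 : s₀ ≤ c) (h3 : c < c₂) (h4 : c₂ < τ) :
    (c / s₀) ^ n * ∫ z in {z | z ∈ D ∧ sq G z < s₁}, gram G z ≤
      ∫ z in {z | z ∈ D ∧ sq G z < c₂}, gram G z := by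
  obtain ⟨c₁, hc₁, hc₂⟩ := exists_between h3
  obtain ⟨γ, hγ, hγ1, hγ2, hγ3, hγ4⟩ := exists_weight h0 h1 h2 hc₁
  set φ : ℝ → ℝ := fun s => 1 - step c₂ τ s with hφ
  have hφc : ContDiff ℝ 2 φ := contDiff_const.sub (contDiff_step _ _)
  have hφ0 : ∀ s, τ ≤ s → φ s = 0 := fun s hs => by simp [hφ, step_of_ge h4 hs]
  have hφ1 : ∀ s, s ≤ c₂ → φ s = 1 := fun s hs => by simp [hφ, step_of_le h4 hs]
  set Γ : ℝ → ℝ := fun s => φ s * γ s with hΓ
  obtain ⟨i1, I1⟩ := integral_det_mat hn hD hG hK (Γ := Γ) (hφc.mul hγ)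
    (fun s hs => by simp [hΓ, hφ0 s hs])
  obtain ⟨i0, I0⟩ := integral_det_mat hn hD hG hK hφc hφ0
  set A := {z | z ∈ D ∧ sq G z < s₁} with hA
  set B := {z | z ∈ D ∧ sq G z < c₂} with hB
  have mA : MeasurableSet A := (isOpen_sub hD hG s₁).measurableSet
  have mB : MeasurableSet B := (isOpen_sub hD hG c₂).measurableSet
  have iA : IntegrableOn (gram G) A volume := integrableOn_gram hD hG hK (by linarith)
  have iB : IntegrableOn (gram G) B volume := integrableOn_gram hD hG hK h4.le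
  have jA : IntegrableOn (A.indicator (gram G)) D volume :=
    ((integrable_indicator_iff mA).2 iA).integrableOn
  have jB : IntegrableOn (B.indicator (gram G)) D volume :=
    ((integrable_indicator_iff mB).2 iB).integrableOn
  have eA : ∫ z in D, A.indicator (gram G) z = ∫ z in A, gram G z := by
    rw [setIntegral_indicator mA, inter_eq_right.2 fun _ h => h.1]
  have eB : ∫ z in D, B.indicator (gram G) z = ∫ z in B, gram G z := by
    rw [setIntegral_indicator mB, inter_eq_right.2 fun _ h => h.1]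
  have hle : ∀ z ∈ D, (c / s₀) ^ n * A.indicator (gram G) z - B.indicator (gram G) z ≤
      (mat G (Γ (sq G z)) (deriv Γ (sq G z)) z).det.re -
        (mat G (φ (sq G z)) (deriv φ (sq G z)) z).det.re := by
    intro z hz
    rcases lt_or_ge (sq G z) c₂ with h | h
    · have e1 : Γ =ᶠ[𝓝 (sq G z)] γ := by
        filter_upwards [Iio_mem_nhds h] with u hu
        simp [hΓ, hφ1 u (le_of_lt hu)]
      rw [e1.deriv_eq, e1.eq_of_nhds, hφ1 _ h.le, deriv_eq_zero_of_lt hφ1 h, det_mat_zero,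
        indicator_of_mem (show z ∈ B from ⟨hz, h⟩), one_pow, one_mul, sub_le_sub_iff_right]
      rcases lt_or_ge (sq G z) s₁ with h' | h'
      · rw [indicator_of_mem (show z ∈ A from ⟨hz, h'⟩), hγ1 _ h'.le, deriv_eq_zero_of_lt hγ1 h',
          det_mat_zero]
      · rw [indicator_of_notMem (show z ∉ A from fun hh => absurd hh.2 (not_lt.2 h')), mul_zero]
        exact det_mat_nonneg G z (hγ3 _) (hγ4 _ (sq_nonneg' G z))
    · have e1 : Γ =ᶠ[𝓝 (sq G z)] φ := by
        filter_upwards [Ioi_mem_nhds (hc₂.trans_le h)] with u hu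
        simp [hΓ, hγ2 u (le_of_lt hu)]
      rw [e1.deriv_eq, e1.eq_of_nhds,
        indicator_of_notMem (show z ∉ A from fun hh => absurd hh.2 (not_lt.2 (by linarith))),
        indicator_of_notMem (show z ∉ B from fun hh => absurd hh.2 (not_lt.2 h))]
      simp
  have hint := setIntegral_mono_on ((jA.const_mul ((c / s₀) ^ n)).sub jB) (i1.sub i0)
    hD.measurableSet hle
  simp only [Pi.sub_apply] at hint
  rw [integral_sub (jA.const_mul _) jB, integral_sub i1 i0, I1, I0, integral_const_mul, eA, eB]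
    at hint
  linarith

/-- The mass of the sublevel set. -/
noncomputable def mass (D : Set (Fin n → ℂ)) (G : Fin N → (Fin n → ℂ) → ℂ) (s : ℝ) : ENNReal :=
  ∫⁻ z in {z | z ∈ D ∧ sq G z < s}, ENNReal.ofReal (gram G z)

theorem mass_mono (D : Set (Fin n → ℂ)) (G : Fin N → (Fin n → ℂ) → ℂ) : Monotone (mass D G) :=
  fun _ _ h => lintegral_mono_set fun _ hz => ⟨hz.1, hz.2.trans_le h⟩

theorem mass_eq (hD : IsOpen D) (hG : ∀ j, DifferentiableOn ℂ (G j) D)
    {τ : ℝ} (hK : IsCompact {z | z ∈ D ∧ sq G z ≤ τ}) {s : ℝ} (hs : s ≤ τ) :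
    mass D G s = ENNReal.ofReal (∫ z in {z | z ∈ D ∧ sq G z < s}, gram G z) :=
  (ofReal_integral_eq_lintegral_ofReal (integrableOn_gram hD hG hK hs)
    (Eventually.of_forall fun z => gram_nonneg G z)).symm

theorem mass_le_of_forall_lt {s : ℝ}
    {M : ENNReal} (h : ∀ u, u < s → mass D G u ≤ M) : mass D G s ≤ M := by
  have e : {z | z ∈ D ∧ sq G z < s} = ⋃ k : ℕ, {z | z ∈ D ∧ sq G z < s - 1 / ((k : ℝ) + 1)} := by
    ext z
    simp only [mem_ofPred_eq, mem_iUnion]
    constructor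
    · rintro ⟨hz, hs⟩
      obtain ⟨k, hk⟩ := exists_nat_one_div_lt (sub_pos.2 hs)
      exact ⟨k, hz, by linarith⟩
    · rintro ⟨k, hz, hs⟩
      have : (0 : ℝ) < 1 / ((k : ℝ) + 1) := by positivity
      exact ⟨hz, by linarith⟩
  have hmono : Monotone fun k : ℕ => {z | z ∈ D ∧ sq G z < s - 1 / ((k : ℝ) + 1)} := by
    intro k l hkl z hz
    have : 1 / ((l : ℝ) + 1) ≤ 1 / ((k : ℝ) + 1) :=
      one_div_le_one_div_of_le (by positivity) (by exact_mod_cast Nat.succ_le_succ hkl)
    exact ⟨hz.1, by linarith [hz.2]⟩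
  unfold mass
  rw [e, setLIntegral_iUnion_of_directed _ hmono.directed_le]
  refine iSup_le fun k => h _ ?_
  have : (0 : ℝ) < 1 / ((k : ℝ) + 1) := by positivity
  linarith

/-- Lelong monotonicity, indicator form. -/
theorem lelong_ind (hD : IsOpen D) (hG : ∀ j, DifferentiableOn ℂ (G j) D)
    {τ : ℝ} (hK : IsCompact {z | z ∈ D ∧ sq G z ≤ τ}) {s t : ℝ} (hs : s ≤ τ) (ht0 : 0 < t)
    (ht1 : t ≤ 1) : mass D G (t * s) ≤ ENNReal.ofReal (t ^ n) * mass D G s := by
  rcases le_or_gt s 0 with hs0 | hs0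
  · have : {z | z ∈ D ∧ sq G z < t * s} = ∅ := by
      refine eq_empty_of_forall_notMem fun z hz => ?_
      have := sq_nonneg' G z
      nlinarith [hz.2]
    simp [mass, this]
  rcases Nat.eq_zero_or_pos n with hn | hn
  · subst hn
    simpa using mass_mono D G (show t * s ≤ s by nlinarith)
  rcases eq_or_lt_of_le ht1 with rfl | ht1
  · simp
  have hts : t * s < s := by nlinarith
  have hts0 : 0 < t * s := mul_pos ht0 hs0
  refine mass_le_of_forall_lt fun u hu => ?_
  have hu' : ∃ s₁, u ≤ s₁ ∧ 0 < s₁ ∧ s₁ < t * s :=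
    ⟨max u (t * s / 2), le_max_left _ _, lt_max_of_lt_right (by linarith),
      max_lt hu (by linarith)⟩
  obtain ⟨s₁, k0, k1, k2⟩ := hu'
  refine (mass_mono D G k0).trans ?_
  rw [mass_eq hD hG hK (s := s₁) (by linarith), mass_eq hD hG hK hs,
    ← ENNReal.ofReal_mul (by positivity)]
  refine ENNReal.ofReal_le_ofReal ?_
  set a := ∫ z in {z | z ∈ D ∧ sq G z < s₁}, gram G z with ha
  set b := ∫ z in {z | z ∈ D ∧ sq G z < s}, gram G z with hb
  have hc : ∀ c ∈ Ioo (t * s) s, (c / (t * s)) ^ n * a ≤ b := by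
    intro c hc
    obtain ⟨c₂, p1, p2⟩ := exists_between hc.2
    refine (comparison hn hD hG hK k1 k2 hc.1.le p1 (p2.trans_le hs)).trans ?_
    refine setIntegral_mono_set (integrableOn_gram hD hG hK hs)
      (Eventually.of_forall fun z => gram_nonneg G z) (Eventually.of_forall ?_)
    exact fun z hz => ⟨hz.1, hz.2.trans p2⟩
  have hlim : Tendsto (fun c : ℝ => (c / (t * s)) ^ n * a) (𝓝[<] s) (𝓝 ((s / (t * s)) ^ n * a)) :=
    (((continuous_id.div_const _).pow n).mul continuous_const).continuousAt.tendsto.mono_left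
      nhdsWithin_le_nhds
  have hfin : (s / (t * s)) ^ n * a ≤ b :=
    le_of_tendsto hlim (by filter_upwards [Ioo_mem_nhdsLT hts] with c h using hc c h)
  have e : t ^ n * (s / (t * s)) ^ n = 1 := by
    rw [← mul_pow]
    have : t * (s / (t * s)) = 1 := by field_simp
    rw [this, one_pow]
  calc a = t ^ n * ((s / (t * s)) ^ n * a) := by rw [← mul_assoc, e, one_mul]
    _ ≤ t ^ n * b := mul_le_mul_of_nonneg_left hfin (by positivity)

end Holo

theorem superlevel {ψ : ℝ → ℝ} (hψ : Continuous ψ) (ha : Antitone ψ) {τ u : ℝ}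
    (h0 : ∀ s, τ ≤ s → ψ s = 0) (hu : 0 < u) :
    ∃ r, r ≤ τ ∧ ∀ s, 0 ≤ s → (u < ψ s ↔ s < r) := by
  have hb : ∀ s, u < ψ s → s < τ := fun s hs => by
    by_contra h
    rw [h0 s (not_lt.1 h)] at hs
    exact absurd hs (not_lt.2 hu.le)
  by_cases hne : {s | u < ψ s}.Nonempty
  · have hbdd : BddAbove {s | u < ψ s} := ⟨τ, fun s hs => (hb s hs).le⟩
    refine ⟨sSup {s | u < ψ s}, csSup_le hne fun s hs => (hb s hs).le, fun s _ => ⟨?_, ?_⟩⟩
    · intro hs
      have ho : {s | u < ψ s} ∈ 𝓝 s := (isOpen_lt continuous_const hψ).mem_nhds hs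
      obtain ⟨s', h1, h2⟩ := (nhdsWithin_le_nhds ho : {s | u < ψ s} ∈ 𝓝[>] s) |>
        Filter.inter_mem self_mem_nhdsWithin |> Filter.nonempty_of_mem
      exact lt_of_lt_of_le h1 (le_csSup hbdd h2)
    · intro hs
      obtain ⟨s', h1, h2⟩ := exists_lt_of_lt_csSup hne hs
      exact lt_of_lt_of_le h1 (ha h2.le)
  · refine ⟨min τ 0, min_le_left _ _, fun s hs => ⟨fun h => absurd ⟨s, h⟩ hne, fun h => ?_⟩⟩
    exact absurd (h.trans_le (min_le_right _ _)) (not_lt.2 hs)

/-- **Lelong monotonicity formula.** -/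
theorem lelongMono : LelongMono := by
  intro n N D hD G hG τ hK ψ hψ ha h0 t ht0 ht1
  have hψc : Continuous ψ := hψ.continuous
  have hψ0 : ∀ s, 0 ≤ ψ s := fun s => by
    rw [← h0 (max s τ) (le_max_right _ _)]
    exact ha (le_max_left _ _)
  set μ : Measure (Fin n → ℂ) :=
    (volume.restrict D).withDensity fun z => ENNReal.ofReal (gram G z) with hμ
  have mg : AEMeasurable (fun z => ENNReal.ofReal (gram G z)) (volume.restrict D) :=
    ((continuousOn_gram hD hG).aemeasurable hD.measurableSet).ennreal_ofReal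
  have ms : AEMeasurable (sq G) (volume.restrict D) :=
    (continuousOn_sq hD hG).aemeasurable hD.measurableSet
  have hac : μ ≪ volume.restrict D := withDensity_absolutelyContinuous _ _
  have hD' : ∀ᵐ z ∂μ, z ∈ D := hac.ae_le (ae_restrict_mem hD.measurableSet)
  have hmass : ∀ r, μ {z | z ∈ D ∧ sq G z < r} = mass D G r := fun r => by
    have hm := (isOpen_sub hD hG r).measurableSet
    rw [hμ, withDensity_apply _ hm, Measure.restrict_restrict hm,
      inter_eq_left.2 fun _ h => h.1, mass]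
  have key : ∀ f : ℝ → ℝ, Continuous f → (∀ s, 0 ≤ f s) →
      ∫⁻ z in D, ENNReal.ofReal (f (sq G z) * gram G z) =
        ∫⁻ u in Ioi (0 : ℝ), μ {z | u < f (sq G z)} := by
    intro f hf hf0
    have mf : AEMeasurable (fun z => f (sq G z)) (volume.restrict D) :=
      hf.measurable.comp_aemeasurable ms
    rw [← lintegral_eq_lintegral_meas_lt μ (Eventually.of_forall fun z => hf0 _) (mf.mono_ac hac),
      hμ, lintegral_withDensity_eq_lintegral_mul₀ mg mf.ennreal_ofReal]
    refine lintegral_congr fun z => ?_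
    rw [Pi.mul_apply, ENNReal.ofReal_mul (hf0 _), mul_comm]
  have k1 := key (fun s => ψ (s / t)) (hψc.comp (continuous_id.div_const t)) fun s => hψ0 _
  have k2 := key ψ hψc hψ0
  change ∫⁻ z in D, ENNReal.ofReal (ψ (sq G z / t) * gram G z) ≤
    ENNReal.ofReal (t ^ n) * ∫⁻ z in D, ENNReal.ofReal (ψ (sq G z) * gram G z)
  rw [k1, k2, ← lintegral_const_mul' _ _ ENNReal.ofReal_ne_top]
  refine setLIntegral_mono' measurableSet_Ioi fun u hu => ?_
  obtain ⟨r, hr, hiff⟩ := superlevel hψc ha h0 hu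
  have e1 : μ {z | u < ψ (sq G z / t)} = μ {z | z ∈ D ∧ sq G z < t * r} := by
    refine measure_congr ?_
    filter_upwards [hD'] with z hz
    have := hiff (sq G z / t) (div_nonneg (sq_nonneg' G z) ht0.le)
    rw [div_lt_iff₀' ht0] at this
    exact propext ⟨fun h => ⟨hz, this.1 h⟩, fun h => this.2 h.2⟩
  have e2 : μ {z | u < ψ (sq G z)} = μ {z | z ∈ D ∧ sq G z < r} := by
    refine measure_congr ?_
    filter_upwards [hD'] with z hz
    have := hiff (sq G z) (sq_nonneg' G z)
    exact propext ⟨fun h => ⟨hz, this.1 h⟩, fun h => this.2 h.2⟩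
  rw [e1, e2, hmass, hmass]
  exact lelong_ind hD hG hK hr ht0 ht1

end Vale.Agent.P248Z.MA
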